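import Vale.Agent.P032W.S5.H483.Irr

/-!
# P032: weak minimality of the palettes (helper355)

Structure `MnAt U T z` (in `Irr.lean`).  `Irr.min_false` is the only way in which minimality is
used; `Irr.min_freq` is the form with one fixed free colour; `Irr.sole_false` the form for one
colour `a`.  `Irr.mnAt_of_old`: the strong frame satisfies the weak form.
-/

open Set Filter Topology Metric

noncomputable section

namespace Vale.Agent.P032.Six

variable {k : ℕ} {U : Fin k → Set ℂ} {T : ℂ → Set (Fin k)}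

namespace Irr

/-- **Minimality, the form which is used.** -/
theorem min_false (h : Irr U T) {z : ℂ} (hm : MnAt U T z) {s : Set (Fin k)} (hs : s ⊆ T z)
    (hne : s ≠ T z)
    (h1 : ∀ᶠ x in 𝓝 z, x ∈ XX U → ∀ p q, T x = {p, q} → p ∉ s → q ∈ s →
      ∀ᶠ w in 𝓝 x, T w = {p} → Fre U q w)
    {ε : ℝ} (hε : 0 < ε)
    (h2 : ∀ Q : Set ℂ, Q ⊆ ball z ε → IsPreconnected Q → Q.Nonempty →
      (∀ w ∈ Q, Disjoint (T w) s) → ∃ i ∈ s, ∀ w ∈ Q, Fre U i w) : False := by
  have hb : ∀ᶠ w in 𝓝 z, w ∈ ball z ε := ball_mem_nhds z hε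
  obtain ⟨w, hw, hw1, hwε, hwg⟩ := ((hm.mn s hs hne).and_eventually
    (h1.and (hb.and (hm.germ ε hε)))).exists
  rcases hw with ⟨hwX, hws⟩ | ⟨hwX, hwz, hw2, hws⟩
  · obtain ⟨i, his, hfi⟩ := h2 {w} (by simpa using hwε) isPreconnected_singleton
      (singleton_nonempty w) (by
        rintro _ rfl
        exact Set.disjoint_left.2 fun i hi his => hws i his (h.off _ hwX i hi))
    exact hws i his (h.max i w (Or.inl hwX) (hfi w rfl))
  · have key : ∀ p q, T w = {p, q} → p ∉ s → False := by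
      intro p q hpq hp
      by_cases hq : q ∈ s
      · have h3 := hw1 hwX p q hpq hp hq
        refine hwX q (h.int_closure (Or.inr (by rw [hpq]; simp)) (mem_interior_iff_mem_nhds.2 ?_))
        filter_upwards [h3, h.nhd w] with x hx1 hx2
        by_cases hqx : q ∈ T x
        · exact h.sub x hqx
        · have hTx : T x = {p} := by
            obtain ⟨m, hm⟩ := h.ne x
            have h4 : ∀ m ∈ T x, m = p := by
              intro m hm
              have := hx2 hm
              rw [hpq] at this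
              rcases this with h5 | h5
              · exact h5
              · exact absurd (h5 ▸ hm) hqx
            refine Subset.antisymm (fun m hm => h4 m hm) ?_
            rintro _ rfl
            exact h4 m hm ▸ hm
          have hxX : x ∉ XX U := fun hX => hX p (h.mem_of_single hTx.subset)
          exact subset_closure (h.max q x (Or.inl hxX) (hx1 hTx))
      · obtain ⟨Q, hQ1, hQ2, hQ3, hQ4⟩ := hwg hwz hwX hw2
        obtain ⟨w0, hw0, -⟩ := hQ4 p
        obtain ⟨i, -, hi⟩ := h2 Q hQ2 hQ1 ⟨w0, hw0⟩ (fun x hx => by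
          refine Set.disjoint_left.2 fun m hm hms => ?_
          have h4 := hQ3 x hx hm
          rw [hpq] at h4
          rcases h4 with h5 | h5
          · exact hp (h5 ▸ hms)
          · exact hq (h5 ▸ hms))
        obtain ⟨w1, hw1, hw1f⟩ := hQ4 i
        exact hw1f (hi w1 hw1)
    obtain ⟨p, q, -, hpq⟩ := Set.ncard_eq_two.1 hw2
    by_cases hp : p ∈ s
    · refine key q p (by rw [hpq, Set.pair_comm]) fun hq => hws ?_
      rw [hpq]
      rintro m (rfl | rfl) <;> assumption
    · exact key p q hpq hp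

/-- minimality with one fixed colour -/
theorem min_freq (h : Irr U T) {z : ℂ} (hm : MnAt U T z) {x : Fin k} (hx : x ∈ T z)
    {A : Set (Fin k)} (hAz : A ⊆ T z) (hAne : A.Nonempty) (hxA : x ∉ A)
    (hsp : ∀ᶠ w in 𝓝 z, x ∉ T w → T w ⊆ A ∨ Disjoint A (T w)) :
    ∃ᶠ w in 𝓝 z, T w ⊆ A ∧ ¬ Fre U x w := by
  intro hcon
  have hcon' : ∀ᶠ w in 𝓝 z, T w ⊆ A → Fre U x w := by
    filter_upwards [hcon] with w hw h1
    by_contra h2
    exact hw ⟨h1, h2⟩
  obtain ⟨ε, hε, hb⟩ := Metric.eventually_nhds_iff_ball.1 (hcon'.and (h.nhd z))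
  refine h.min_false hm (s := T z \ A) sdiff_subset (fun h2 => ?_) ?_ hε ?_
  · obtain ⟨a, ha⟩ := hAne
    have : a ∈ T z \ A := by rw [h2]; exact hAz ha
    exact this.2 ha
  · filter_upwards [hsp, hcon'.eventually_nhds, h.nhd z] with w h1 h2 h3 _ p q hpq hp hq
    have hpA : p ∈ A := by
      by_contra hpA
      exact hp ⟨h3 (by rw [hpq]; simp), hpA⟩
    have hxw : x ∈ T w := by
      by_contra hxw
      rcases h1 hxw with h4 | h4
      · exact hq.2 (h4 (by rw [hpq]; simp))
      · exact Set.disjoint_left.1 h4 hpA (by rw [hpq]; simp)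
    have hqx : q = x := by
      rw [hpq] at hxw
      rcases hxw with h4 | h4
      · exact absurd (h4 ▸ hpA) hxA
      · exact h4.symm
    subst hqx
    filter_upwards [h2] with y hy h4
    refine hy ?_
    rw [h4]
    rintro _ rfl
    exact hpA
  · intro Q hQ _ _ hQd
    refine ⟨x, ⟨hx, hxA⟩, fun w hw => (hb w (hQ hw)).1 fun m hm => ?_⟩
    by_contra hmA
    exact Set.disjoint_left.1 (hQd w hw) hm ⟨(hb w (hQ hw)).2 hm, hmA⟩

/-- minimality for one colour `a`: if near `z` the colour `a` meets only `d` then `d` is not free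
at all points with palette `{a}` -/
theorem sole_false (h : Irr U T) {z : ℂ} (hm : MnAt U T z) {a d : Fin k} (ha : a ∈ T z)
    (hd : d ∈ T z) (had : a ≠ d)
    (hs : ∀ᶠ x in 𝓝 z, ∀ b ∈ T x, a ∈ T x → b = a ∨ d ∈ T x)
    (hw : ∀ᶠ w in 𝓝 z, T w = {a} → Fre U d w) : False := by
  refine h.min_freq hm hd (A := {a}) (by simpa using ha) (singleton_nonempty a)
    (fun h1 => had h1.symm) ?_ ?_
  · filter_upwards [hs] with w h1 hdw
    by_cases haw : a ∈ T w
    · exact Or.inl fun b hb => (h1 b hb haw).resolve_right hdw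
    · exact Or.inr (Set.disjoint_singleton_left.2 haw)
  · filter_upwards [hw] with w h1 h2
    refine h2.2 (h1 (Subset.antisymm h2.1 ?_))
    rintro _ rfl
    obtain ⟨m, hm⟩ := h.ne w
    have := h2.1 hm
    exact (show m = _ from this) ▸ hm

/-- the same with `U d` -/
theorem sole_false' (h : Irr U T) {z : ℂ} (hm : MnAt U T z) {a d : Fin k} (ha : a ∈ T z)
    (hd : d ∈ T z) (had : a ≠ d)
    (hs : ∀ᶠ x in 𝓝 z, ∀ b ∈ T x, a ∈ T x → b = a ∨ d ∈ T x)
    (hw : ∀ᶠ w in 𝓝 z, T w = {a} → w ∈ U d) : False :=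
  h.sole_false hm ha hd had hs (hw.mono fun w hw h1 => h.mx.free d w (hw h1))

/-- the strong frame satisfies the weak form -/
theorem mnAt_of_old (h : Irr U T) (hmax : ∀ i x, (∀ y ∈ closure (U i), dist x y ≠ 1) → x ∈ U i)
    {z : ℂ} (hmin : ∀ s, s ⊆ T z → s ≠ T z →
      ¬ ∀ᶠ w in 𝓝 z, ∃ i ∈ s, w ∈ U i ∨ (w ∈ XX U ∧ i ∈ Pal U w)) : MnAt U T z where
  mn := by
    intro s hs hne
    have h1 := Filter.not_eventually.1 (hmin s hs hne)
    rw [Filter.frequently_iff] at h1 ⊢
    intro V hV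
    obtain ⟨W, hWV, hWo, hzW⟩ := _root_.mem_nhds_iff.1 hV
    obtain ⟨w, hwW, hw⟩ := h1 (hWo.mem_nhds hzW)
    push Not at hw
    by_cases hwX : w ∈ XX U
    · have h2 : W ∩ ⋂ i ∈ s, (closure (U i))ᶜ ∈ 𝓝 w := by
        refine inter_mem (hWo.mem_nhds hwW) ?_
        refine (Filter.biInter_mem (Set.toFinite s)).2 fun i hi => ?_
        exact isClosed_closure.isOpen_compl.mem_nhds ((hw i hi).2 hwX)
      obtain ⟨j, hj⟩ := h.ne w
      obtain ⟨x, hxN, hxj⟩ := mem_closure_iff_nhds.1 (h.sub w hj) _ h2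
      refine ⟨x, hWV hxN.1, Or.inl ⟨fun hX => hX j hxj, fun i hi hxi => ?_⟩⟩
      exact (mem_iInter₂.1 hxN.2 i hi) (subset_closure hxi)
    · exact ⟨w, hWV hwW, Or.inl ⟨hwX, fun i hi => (hw i hi).1⟩⟩
  germ := by
    intro ε hε
    filter_upwards [ball_mem_nhds z hε] with x hx _ hxX _
    refine ⟨{x}, isPreconnected_singleton, by simpa using hx, fun w hw => by
      rw [mem_singleton_iff.1 hw], fun i => ⟨x, rfl, fun hf => hxX i (hmax i x hf)⟩⟩

end Irr

end Vale.Agent.P032.Six
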